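import Vale.Agent.P028.H232.Doob
import Vale.Agent.P028.H359.Carleson
attribute [-instance] ProperSMul.toContinuousSMul IsTopologicalTorsor.toContinuousSMul IdemSemiring.toCanonicallyOrderedAdd IdemSemiring.toMulLeftMono IdemSemiring.toMulRightMono AddQuantale.instAddLeftMono AddQuantale.instAddRightMono Quantale.instMulLeftMono Quantale.instMulRightMono FiniteDimensional.rclike_to_real IsScalarTower.complexToReal FiniteDimensional.complexToReal

/-!
# Doob's maximal inequality for nested finite partitions, and the row lemma (helper232)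

Frame of `H359/Carleson`: a finite set `Q` with masses `m`, labellings `cl 0, ..., cl n`, coarser
and coarser. `av Q m (cl k) f (cl k q)` is the average of `f` over the class of `q` at level `k`.
-/

namespace Vale.P028.Carl

open Finset Vale.P028.RN

variable {ι κ : Type*} [DecidableEq κ]

/-- averaging against a function which is constant on the classes -/
theorem sum_av {Q : Finset ι} {m : ι → ℝ} (hm : ∀ q ∈ Q, 0 ≤ m q) (cl : ι → κ) (f g : ι → ℝ)
    (hg : ∀ q ∈ Q, ∀ r ∈ Q, cl q = cl r → g q = g r) :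
    ∑ q ∈ Q, m q * (g q * av Q m cl f (cl q)) = ∑ q ∈ Q, m q * (g q * f q) := by
  rw [sum_classes Q cl, sum_classes Q cl (fun q => m q * (g q * f q))]
  refine sum_congr rfl fun c hc => ?_
  obtain ⟨q₀, hq₀, rfl⟩ := mem_image.1 hc
  have e1 : ∀ q ∈ Q.filter (fun q => cl q = cl q₀), m q * (g q * av Q m cl f (cl q)) =
      m q * (g q₀ * av Q m cl f (cl q₀)) := by
    intro q hq
    obtain ⟨h1, h2⟩ := mem_filter.1 hq
    rw [h2, hg q h1 q₀ hq₀ h2]
  have e2 : ∀ q ∈ Q.filter (fun q => cl q = cl q₀), m q * (g q * f q) =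
      g q₀ * (m q * f q) := by
    intro q hq
    obtain ⟨h1, h2⟩ := mem_filter.1 hq
    rw [hg q h1 q₀ hq₀ h2]
    ring
  rw [sum_congr rfl e1, sum_congr rfl e2, ← sum_mul, ← mul_sum, ← mul_av hm cl f (cl q₀)]
  unfold mu
  ring

variable (Q : Finset ι) (m : ι → ℝ) (cl : ℕ → ι → κ) (n : ℕ)

/-- the average at level `k` -/
noncomputable def Ak (f : ι → ℝ) (k : ℕ) (q : ι) : ℝ := av Q m (cl k) f (cl k q)

/-- the maximum of the averages of the levels `n - j, ..., n` -/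
noncomputable def mxN (f : ι → ℝ) : ℕ → ι → ℝ
  | 0, q => Ak Q m cl f n q
  | j + 1, q => max (mxN f j q) (Ak Q m cl f (n - (j + 1)) q)

/-- the maximal function -/
noncomputable def MN (f : ι → ℝ) (q : ι) : ℝ := mxN Q m cl n f n q

variable {Q m cl n}

theorem Ak_le_mxN (f : ι → ℝ) {j l : ℕ} (h : l ≤ j) (q : ι) :
    Ak Q m cl f (n - l) q ≤ mxN Q m cl n f j q := by
  induction j, h using Nat.le_induction with
  | base =>
    cases l with
    | zero => exact le_rfl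
    | succ l => exact le_max_right _ _
  | succ j _ ih => exact ih.trans (le_max_left _ _)

theorem Ak_le_MN (f : ι → ℝ) {k : ℕ} (h : k ≤ n) (q : ι) :
    Ak Q m cl f k q ≤ MN Q m cl n f q := by
  have := Ak_le_mxN (Q := Q) (m := m) (cl := cl) (n := n) f (Nat.sub_le n k) q
  rwa [Nat.sub_sub_self h] at this

theorem Ak_nonneg (hm : ∀ q ∈ Q, 0 ≤ m q) {f : ι → ℝ} (hf : ∀ q ∈ Q, 0 ≤ f q) (k : ℕ) (q : ι) :
    0 ≤ Ak Q m cl f k q := av_nonneg hm hf _ _

theorem mxN_nonneg (hm : ∀ q ∈ Q, 0 ≤ m q) {f : ι → ℝ} (hf : ∀ q ∈ Q, 0 ≤ f q) (j : ℕ) (q : ι) :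
    0 ≤ mxN Q m cl n f j q :=
  (Ak_nonneg hm hf n q).trans (Ak_le_mxN f (Nat.zero_le j) q)

theorem MN_nonneg (hm : ∀ q ∈ Q, 0 ≤ m q) {f : ι → ℝ} (hf : ∀ q ∈ Q, 0 ≤ f q) (q : ι) :
    0 ≤ MN Q m cl n f q := mxN_nonneg hm hf n q

omit [DecidableEq κ] in
/-- the classes at the level `k` are inside those of the level `l ≥ k` -/
theorem nested_le
    (hcl : ∀ k < n, ∀ q ∈ Q, ∀ r ∈ Q, cl k q = cl k r → cl (k + 1) q = cl (k + 1) r)
    {k l : ℕ} (h : k ≤ l) (hl : l ≤ n) {q r : ι} (hq : q ∈ Q) (hr : r ∈ Q)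
    (hqr : cl k q = cl k r) : cl l q = cl l r := by
  induction l, h using Nat.le_induction with
  | base => exact hqr
  | succ l _ ih => exact hcl l (by omega) q hq r hr (ih (by omega))

theorem mxN_const
    (hcl : ∀ k < n, ∀ q ∈ Q, ∀ r ∈ Q, cl k q = cl k r → cl (k + 1) q = cl (k + 1) r)
    (f : ι → ℝ) {j : ℕ} (hj : j ≤ n) {q r : ι} (hq : q ∈ Q) (hr : r ∈ Q)
    (h : cl (n - j) q = cl (n - j) r) : mxN Q m cl n f j q = mxN Q m cl n f j r := by
  induction j with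
  | zero =>
    change av Q m (cl n) f (cl n q) = av Q m (cl n) f (cl n r)
    rw [Nat.sub_zero] at h
    rw [h]
  | succ j ih =>
    change max _ (av Q m (cl (n - (j + 1))) f (cl (n - (j + 1)) q)) =
      max _ (av Q m (cl (n - (j + 1))) f (cl (n - (j + 1)) r))
    rw [h, ih (by omega) (nested_le hcl (by omega) (by omega) hq hr h)]

/-- the supermartingale step -/
theorem VDN_step (hm : ∀ q ∈ Q, 0 ≤ m q)
    (hcl : ∀ k < n, ∀ q ∈ Q, ∀ r ∈ Q, cl k q = cl k r → cl (k + 1) q = cl (k + 1) r)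
    {r : ℝ} (hr : 1 < r) {f : ι → ℝ} (hf : ∀ q ∈ Q, 0 ≤ f q) {j : ℕ} (hj : j < n) :
    ∑ q ∈ Q, m q * VD r (Ak Q m cl f (n - (j + 1)) q) (mxN Q m cl n f (j + 1) q) ≤
      ∑ q ∈ Q, m q * VD r (Ak Q m cl f (n - j) q) (mxN Q m cl n f j q) := by
  have h1 : ∀ q ∈ Q, m q * VD r (Ak Q m cl f (n - (j + 1)) q) (mxN Q m cl n f (j + 1) q) ≤
      m q * VD r (Ak Q m cl f (n - j) q) (mxN Q m cl n f j q) -
        r / (r - 1) * (m q * (mxN Q m cl n f j q ^ (r - 1) * Ak Q m cl f (n - (j + 1)) q) -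
          m q * (mxN Q m cl n f j q ^ (r - 1) * Ak Q m cl f (n - j) q)) := by
    intro q hq
    have h2 := VD_tangent hr (x := Ak Q m cl f (n - j) q) (mxN_nonneg (cl := cl) (n := n) hm hf j q)
      (Ak_nonneg (cl := cl) hm hf (n - (j + 1)) q)
    have h3 := mul_le_mul_of_nonneg_left h2 (hm q hq)
    refine h3.trans (le_of_eq ?_)
    ring
  refine (sum_le_sum h1).trans (le_of_eq ?_)
  rw [sum_sub_distrib, ← mul_sum, sum_sub_distrib]
  have c1 : ∀ q ∈ Q, ∀ s ∈ Q, cl (n - j) q = cl (n - j) s →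
      mxN Q m cl n f j q ^ (r - 1) = mxN Q m cl n f j s ^ (r - 1) := fun q hq s hs h => by
    rw [mxN_const hcl f (by omega) hq hs h]
  have c2 : ∀ q ∈ Q, ∀ s ∈ Q, cl (n - (j + 1)) q = cl (n - (j + 1)) s →
      mxN Q m cl n f j q ^ (r - 1) = mxN Q m cl n f j s ^ (r - 1) := fun q hq s hs h =>
    c1 q hq s hs (nested_le hcl (by omega) (by omega) hq hs h)
  have e1 := sum_av hm (cl (n - (j + 1))) f (fun q => mxN Q m cl n f j q ^ (r - 1)) c2
  have e2 := sum_av hm (cl (n - j)) f (fun q => mxN Q m cl n f j q ^ (r - 1)) c1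
  have e3 : ∑ q ∈ Q, m q * (mxN Q m cl n f j q ^ (r - 1) * Ak Q m cl f (n - (j + 1)) q) =
      ∑ q ∈ Q, m q * (mxN Q m cl n f j q ^ (r - 1) * Ak Q m cl f (n - j) q) := e1.trans e2.symm
  rw [e3]
  ring

/-- **Doob's maximal inequality for nested partitions** -/
theorem doobN (hm : ∀ q ∈ Q, 0 ≤ m q)
    (hcl : ∀ k < n, ∀ q ∈ Q, ∀ r ∈ Q, cl k q = cl k r → cl (k + 1) q = cl (k + 1) r)
    {r : ℝ} (hr : 1 < r) {f : ι → ℝ} (hf : ∀ q ∈ Q, 0 ≤ f q) :
    ∑ q ∈ Q, m q * MN Q m cl n f q ^ r ≤ (r / (r - 1)) ^ r * ∑ q ∈ Q, m q * f q ^ r := by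
  have hr0 : 0 < r := by linarith
  have hr1 : 0 < r - 1 := by linarith
  have step : ∀ j ≤ n, ∑ q ∈ Q, m q * VD r (Ak Q m cl f (n - j) q) (mxN Q m cl n f j q) ≤ 0 := by
    intro j
    induction j with
    | zero =>
      intro _
      refine sum_nonpos fun q hq => mul_nonpos_of_nonneg_of_nonpos (hm q hq) ?_
      change VD r (Ak Q m cl f n q) (Ak Q m cl f n q) ≤ 0
      have hx := Ak_nonneg (cl := cl) hm hf n q
      unfold VD
      have h2 : Ak Q m cl f n q ^ (r - 1) * Ak Q m cl f n q = Ak Q m cl f n q ^ r := by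
        rcases hx.eq_or_lt with h0 | h0
        · rw [← h0, mul_zero, Real.zero_rpow (by linarith)]
        · rw [← Real.rpow_add_one h0.ne']
          congr 1
          ring
      rw [h2]
      have h3 : Ak Q m cl f n q ^ r - r / (r - 1) * Ak Q m cl f n q ^ r =
          -(1 / (r - 1) * Ak Q m cl f n q ^ r) := by
        field_simp
        ring
      rw [h3]
      have : 0 ≤ 1 / (r - 1) * Ak Q m cl f n q ^ r := by positivity
      linarith
    | succ j ih =>
      intro hj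
      exact (VDN_step hm hcl hr hf (by omega)).trans (ih (by omega))
  have h2 := step n le_rfl
  rw [Nat.sub_self] at h2
  -- replace the average of level `0` by `f`
  have c0 : ∀ q ∈ Q, ∀ s ∈ Q, cl 0 q = cl 0 s →
      MN Q m cl n f q ^ (r - 1) = MN Q m cl n f s ^ (r - 1) := fun q hq s hs h => by
    unfold MN
    rw [mxN_const hcl f le_rfl hq hs (by rwa [Nat.sub_self])]
  have e0 := sum_av hm (cl 0) f (fun q => MN Q m cl n f q ^ (r - 1)) c0
  have h3 : ∑ q ∈ Q, m q * VD r (Ak Q m cl f 0 q) (mxN Q m cl n f n q) =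
      ∑ q ∈ Q, m q * (MN Q m cl n f q ^ r - r / (r - 1) * (MN Q m cl n f q ^ (r - 1) * f q)) := by
    have e1 : ∀ q ∈ Q, m q * VD r (Ak Q m cl f 0 q) (mxN Q m cl n f n q) =
        m q * MN Q m cl n f q ^ r -
          r / (r - 1) * (m q * (MN Q m cl n f q ^ (r - 1) * Ak Q m cl f 0 q)) := fun q _ => by
      unfold VD MN
      ring
    have e2 : ∀ q ∈ Q, m q * (MN Q m cl n f q ^ r - r / (r - 1) * (MN Q m cl n f q ^ (r - 1) * f q)) =
        m q * MN Q m cl n f q ^ r -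
          r / (r - 1) * (m q * (MN Q m cl n f q ^ (r - 1) * f q)) := fun q _ => by ring
    rw [sum_congr rfl e1, sum_congr rfl e2, sum_sub_distrib, sum_sub_distrib, ← mul_sum,
      ← mul_sum]
    rw [show ∑ q ∈ Q, m q * (MN Q m cl n f q ^ (r - 1) * Ak Q m cl f 0 q) =
      ∑ q ∈ Q, m q * (MN Q m cl n f q ^ (r - 1) * f q) from e0]
  rw [h3] at h2
  have h4 : ∀ q ∈ Q, 1 / r * (m q * MN Q m cl n f q ^ r) -
      1 / r * ((r / (r - 1)) ^ r * (m q * f q ^ r)) ≤
      m q * (MN Q m cl n f q ^ r - r / (r - 1) * (MN Q m cl n f q ^ (r - 1) * f q)) := by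
    intro q hq
    have hM := MN_nonneg (cl := cl) (n := n) hm hf q
    have hl : 0 ≤ r / (r - 1) := by positivity
    have h4 := young_r hr hM (mul_nonneg hl (hf q hq))
    rw [Real.mul_rpow hl (hf q hq)] at h4
    have h5 := mul_le_mul_of_nonneg_left h4 (hm q hq)
    have e1 : m q * (MN Q m cl n f q ^ (r - 1) * (r / (r - 1) * f q)) =
      m q * (r / (r - 1) * (MN Q m cl n f q ^ (r - 1) * f q)) := by ring
    rw [e1] at h5
    have e2 : m q * ((1 - 1 / r) * MN Q m cl n f q ^ r + 1 / r * ((r / (r - 1)) ^ r * f q ^ r)) =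
      m q * MN Q m cl n f q ^ r - 1 / r * (m q * MN Q m cl n f q ^ r) +
        1 / r * ((r / (r - 1)) ^ r * (m q * f q ^ r)) := by ring
    rw [e2] at h5
    rw [mul_sub]
    linarith
  have h5 := (sum_le_sum h4).trans h2
  rw [sum_sub_distrib, ← mul_sum, ← mul_sum, ← mul_sum] at h5
  have h6 : 1 / r * ∑ q ∈ Q, m q * MN Q m cl n f q ^ r ≤
      1 / r * ((r / (r - 1)) ^ r * ∑ q ∈ Q, m q * f q ^ r) := by linarith
  exact le_of_mul_le_mul_left h6 (by positivity)

end Vale.P028.Carl
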