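import Vale.Agent.P028.H232.DoobN
import Vale.Agent.P028.H758.Doob
attribute [-instance] ProperSMul.toContinuousSMul IsTopologicalTorsor.toContinuousSMul IdemSemiring.toCanonicallyOrderedAdd IdemSemiring.toMulLeftMono IdemSemiring.toMulRightMono AddQuantale.instAddLeftMono AddQuantale.instAddRightMono Quantale.instMulLeftMono Quantale.instMulRightMono FiniteDimensional.rclike_to_real IsScalarTower.complexToReal FiniteDimensional.complexToReal

/-!
# Doob's inequality and the row lemma in the frame `Nst` of `H758/Doob` (helper232)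
-/

namespace Vale.P028.Db

open Finset Vale.P028.Carl

variable {α : Type*} {X : Finset α} {rel : ℕ → α → α → Prop} {W : ℕ → α → ℝ} {P : α → ℝ}
  {pc : ℕ → α → ℝ}

open Classical in
/-- the label of the class of `x` of index `i` -/
noncomputable def clR (X : Finset α) (rel : ℕ → α → α → Prop) (i : ℕ) (x : α) : Finset α ⊕ α :=
  if rel i x x then Sum.inl (X.filter (fun y => rel i x y)) else Sum.inr x

theorem clR_of_rel (H : Nst X rel W P pc) {i : ℕ} {x y : α} (hx : x ∈ X) (hy : y ∈ X)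
    (h : rel i x y) : clR X rel i x = clR X rel i y := by
  classical
  have h2 := H.symm i x hx y hy h
  have hxx := H.trans i x hx y hy x hx h h2
  have hyy := H.trans i y hy x hx y hy h2 h
  unfold clR
  rw [if_pos hxx, if_pos hyy]
  congr 1
  ext z
  rw [mem_filter, mem_filter]
  constructor
  · rintro ⟨hz, h3⟩
    exact ⟨hz, H.trans i y hy x hx z hz h2 h3⟩
  · rintro ⟨hz, h3⟩
    exact ⟨hz, H.trans i x hx y hy z hz h h3⟩

theorem rel_of_clR {i : ℕ} {x y : α} (hx : x ∈ X) (hxx : rel i x x)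
    (hsymm : ∀ x ∈ X, ∀ y ∈ X, rel i x y → rel i y x) (hy : y ∈ X)
    (h : clR X rel i x = clR X rel i y) : rel i x y := by
  classical
  unfold clR at h
  rw [if_pos hxx] at h
  by_cases hyy : rel i y y
  · rw [if_pos hyy] at h
    have h1 : x ∈ X.filter (fun z => rel i x z) := mem_filter.2 ⟨hx, hxx⟩
    rw [Sum.inl.inj h] at h1
    exact hsymm y hy x hx (mem_filter.1 h1).2
  · rw [if_neg hyy] at h
    exact absurd h (by simp)

theorem clR_nested (H : Nst X rel W P pc) (n : ℕ) :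
    ∀ k < n, ∀ x ∈ X, ∀ y ∈ X, clR X rel k x = clR X rel k y →
      clR X rel (k + 1) x = clR X rel (k + 1) y := by
  classical
  intro k _ x hx y hy h
  by_cases hxx : rel k x x
  · exact clR_of_rel H hx hy (H.mono (k + 1) k (Nat.le_succ k) x hx y hy
      (rel_of_clR hx hxx (H.symm k) hy h))
  · have h' := h
    unfold clR at h'
    rw [if_neg hxx] at h'
    by_cases hyy : rel k y y
    · rw [if_pos hyy] at h'
      exact absurd h' (by simp)
    · rw [if_neg hyy] at h'
      rw [Sum.inr.inj h']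

/-- the average `Av` is at most the normalised average -/
theorem Av_le_av [DecidableEq (Finset α ⊕ α)] (H : Nst X rel W P pc) {u : α → ℝ}
    (hu : ∀ x ∈ X, 0 ≤ u x) (i : ℕ) {x : α} (hx : x ∈ X) (hP : 0 < P x) :
    Av X rel W i u x ≤ Ak X P (clR X rel) u i x := by
  classical
  by_cases hxx : rel i x x
  · have hf : X.filter (fun y => clR X rel i y = clR X rel i x) = X.filter (fun y => rel i x y) := by
      ext y
      rw [mem_filter, mem_filter]
      constructor
      · rintro ⟨hy, h⟩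
        exact ⟨hy, rel_of_clR hx hxx (H.symm i) hy h.symm⟩
      · rintro ⟨hy, h⟩
        exact ⟨hy, (clR_of_rel H hx hy h).symm⟩
    have hpc : 0 < pc i x := by
      have h1 := H.P_eq i x hx
      have h2 := H.W_nonneg i x hx
      by_contra h3
      have h4 : W i x * pc i x ≤ 0 := mul_nonpos_of_nonneg_of_nonpos h2 (not_lt.1 h3)
      linarith
    have hPW : ∀ y ∈ X.filter (fun y => rel i x y), P y = pc i x * W i y := by
      intro y hy
      obtain ⟨h1, h2⟩ := mem_filter.1 hy
      rw [H.P_eq i y h1, H.pc_eq i x hx y h1 h2]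
      ring
    have hmu : mu X P (clR X rel i) (clR X rel i x) = pc i x * ∑ y ∈ X.filter (fun y => rel i x y),
        W i y := by
      unfold mu
      rw [hf, sum_congr rfl hPW, mul_sum]
    have hmu_le : mu X P (clR X rel i) (clR X rel i x) ≤ pc i x := by
      rw [hmu]
      calc pc i x * _ ≤ pc i x * 1 := mul_le_mul_of_nonneg_left (H.sum_le i x hx) hpc.le
        _ = _ := mul_one _
    have hmu_pos : 0 < mu X P (clR X rel i) (clR X rel i x) := by
      unfold mu
      rw [hf]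
      refine lt_of_lt_of_le hP ?_
      exact single_le_sum (f := P) (fun y hy => H.P_nonneg y (mem_filter.1 hy).1)
        (mem_filter.2 ⟨hx, hxx⟩)
    unfold Ak av
    rw [le_div_iff₀ hmu_pos, hf]
    have h0 : 0 ≤ Av X rel W i u x := Av_nonneg H hu x
    calc Av X rel W i u x * mu X P (clR X rel i) (clR X rel i x) ≤ Av X rel W i u x * pc i x :=
          mul_le_mul_of_nonneg_left hmu_le h0
      _ = ∑ y ∈ X.filter (fun y => rel i x y), P y * u y := by
          unfold Av
          rw [sum_mul]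
          refine sum_congr rfl fun y hy => ?_
          rw [hPW y hy]
          ring
  · have h0 : Av X rel W i u x = 0 := by
      unfold Av
      refine sum_eq_zero fun y hy => ?_
      obtain ⟨h1, h2⟩ := mem_filter.1 hy
      exact absurd (H.trans i x hx y h1 x hx h2 (H.symm i x hx y h1 h2)) hxx
    rw [h0]
    exact Ak_nonneg (fun y hy => H.P_nonneg y hy) hu i x

/-- the maximal function of the averages `Av` -/
noncomputable def MR (X : Finset α) (rel : ℕ → α → α → Prop) (P : α → ℝ) (n : ℕ) (u : α → ℝ)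
    (x : α) : ℝ := by
  classical
  exact MN X P (clR X rel) n u x

theorem MR_nonneg (H : Nst X rel W P pc) {n : ℕ} {u : α → ℝ} (hu : ∀ x ∈ X, 0 ≤ u x) (x : α) :
    0 ≤ MR X rel P n u x := by
  classical
  exact MN_nonneg H.P_nonneg hu x

theorem Av_le_MR (H : Nst X rel W P pc) {n : ℕ} {u : α → ℝ} (hu : ∀ x ∈ X, 0 ≤ u x) {i : ℕ}
    (hi : i ≤ n) {x : α} (hx : x ∈ X) (hP : 0 < P x) : Av X rel W i u x ≤ MR X rel P n u x := by
  classical
  exact (Av_le_av H hu i hx hP).trans (Ak_le_MN u hi x)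

/-- **Doob's inequality in the frame `Nst`** -/
theorem doobR (H : Nst X rel W P pc) {n : ℕ} {r : ℝ} (hr : 1 < r) {u : α → ℝ}
    (hu : ∀ x ∈ X, 0 ≤ u x) :
    ∑ x ∈ X, P x * MR X rel P n u x ^ r ≤ (r / (r - 1)) ^ r * ∑ x ∈ X, P x * u x ^ r := by
  classical
  exact doobN H.P_nonneg (clR_nested H n) hr hu

/-- Hölder with a factor `β ≤ 1` -/
theorem holder_beta {ι : Type*} {S : Finset ι} {w β y : ι → ℝ} {p : ℝ} (hp : 1 < p)
    (hw : ∀ i ∈ S, 0 ≤ w i) (hβ : ∀ i ∈ S, 0 ≤ β i) (hβ1 : ∀ i ∈ S, β i ≤ 1)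
    (hy : ∀ i ∈ S, 0 ≤ y i) :
    ∑ i ∈ S, w i * (β i * y i) ≤
      (∑ i ∈ S, w i * β i) ^ (1 - 1 / p) * (∑ i ∈ S, w i * y i ^ p) ^ (1 / p) := by
  have hp0 : 0 < p := by linarith
  have hp1 : 0 < p - 1 := by linarith
  have hc : (p / (p - 1)).HolderConjugate p := by
    rw [Real.holderConjugate_iff]
    refine ⟨?_, ?_⟩
    · rw [lt_div_iff₀ hp1]
      linarith
    · field_simp
      ring
  have h := Real.inner_le_Lp_mul_Lq_of_nonneg S (f := fun i => w i ^ (1 - 1 / p) * β i)
    (g := fun i => w i ^ (1 / p) * y i) hc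
    (fun i hi => mul_nonneg (Real.rpow_nonneg (hw i hi) _) (hβ i hi))
    (fun i hi => mul_nonneg (Real.rpow_nonneg (hw i hi) _) (hy i hi))
  have e1 : ∀ i ∈ S, w i ^ (1 - 1 / p) * β i * (w i ^ (1 / p) * y i) = w i * (β i * y i) := by
    intro i hi
    have : w i ^ (1 - 1 / p) * w i ^ (1 / p) = w i := by
      rcases (hw i hi).eq_or_lt with h0 | h0
      · rw [← h0, Real.zero_rpow (by
          have : 1 / p < 1 := by rw [div_lt_one hp0]; exact hp
          linarith), zero_mul]
      · rw [← Real.rpow_add h0]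
        simp
    calc w i ^ (1 - 1 / p) * β i * (w i ^ (1 / p) * y i) =
        (w i ^ (1 - 1 / p) * w i ^ (1 / p)) * (β i * y i) := by ring
      _ = _ := by rw [this]
  have e2 : ∀ i ∈ S, (w i ^ (1 - 1 / p) * β i) ^ (p / (p - 1)) ≤ w i * β i := by
    intro i hi
    rw [Real.mul_rpow (Real.rpow_nonneg (hw i hi) _) (hβ i hi), ← Real.rpow_mul (hw i hi)]
    have e : (1 - 1 / p) * (p / (p - 1)) = 1 := by field_simp
    rw [e, Real.rpow_one]
    refine mul_le_mul_of_nonneg_left ?_ (hw i hi)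
    calc β i ^ (p / (p - 1)) ≤ β i ^ (1 : ℝ) := by
          rcases (hβ i hi).eq_or_lt with h0 | h0
          · rw [← h0, Real.zero_rpow (by positivity), Real.zero_rpow (by norm_num)]
          · refine Real.rpow_le_rpow_of_exponent_ge h0 (hβ1 i hi) ?_
            rw [le_div_iff₀ hp1]
            linarith
      _ = β i := Real.rpow_one _
  have e3 : ∀ i ∈ S, (w i ^ (1 / p) * y i) ^ p = w i * y i ^ p := by
    intro i hi
    rw [Real.mul_rpow (Real.rpow_nonneg (hw i hi) _) (hy i hi), ← Real.rpow_mul (hw i hi)]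
    rw [one_div_mul_cancel hp0.ne', Real.rpow_one]
  rw [sum_congr rfl e1, sum_congr rfl e3] at h
  refine h.trans ?_
  have e4 : 1 / (p / (p - 1)) = 1 - 1 / p := by field_simp
  rw [e4]
  have hnn : 0 ≤ 1 - 1 / p := by
    have : 1 / p < 1 := by rw [div_lt_one hp0]; exact hp
    linarith
  refine mul_le_mul_of_nonneg_right ?_ (Real.rpow_nonneg (sum_nonneg fun i hi =>
    mul_nonneg (hw i hi) (Real.rpow_nonneg (hy i hi) _)) _)
  exact Real.rpow_le_rpow (sum_nonneg fun i hi => Real.rpow_nonneg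
    (mul_nonneg (Real.rpow_nonneg (hw i hi) _) (hβ i hi)) _) (sum_le_sum e2) hnn

open Classical in
/-- **The row lemma in the frame `Nst`**, exponents `1 < p < t` -/
theorem row_lemmaR (H : Nst X rel W P pc) {n : ℕ} {p t t' : ℝ} (hp : 1 < p) (hpt : p < t)
    (htt : t'.HolderConjugate t)
    {ν : ℕ → α → ℝ} (hν : ∀ s, ∀ x ∈ X, 0 ≤ ν s x)
    {β : ℕ → α → α → ℝ} (hβ : ∀ s, ∀ x ∈ X, ∀ y ∈ X, 0 ≤ β s x y)
    (hβ1 : ∀ s, ∀ x ∈ X, ∀ y ∈ X, β s x y ≤ 1) {C : ℝ} (hC0 : 0 ≤ C)
    {a b : α → ℝ} (ha : ∀ x ∈ X, 0 ≤ a x) (hb : ∀ x ∈ X, 0 ≤ b x)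
    (hC : ∀ x ∈ X, a x ≠ 0 → ∑ s ∈ range (n + 1), ν s x *
      (∑ y ∈ X.filter (fun y => rel s x y), W s y * β s x y) ^ (1 - 1 / p) ≤ C) :
    ∑ s ∈ range (n + 1), ∑ x ∈ X, P x * (a x * (ν s x *
      ∑ y ∈ X.filter (fun y => rel s x y), W s y * (β s x y * b y))) ≤
      (t / (t - p)) ^ (1 / p) * C * (∑ x ∈ X, P x * a x ^ t') ^ (1 / t') *
        (∑ x ∈ X, P x * b x ^ t) ^ (1 / t) := by
  have hp0 : 0 < p := by linarith
  have ht0 : 0 < t := by linarith
  have ht'0 : 0 < t' := htt.pos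
  set g : α → ℝ := fun x => MR X rel P n (fun y => b y ^ p) x ^ (1 / p) with hg
  have hbp : ∀ x ∈ X, 0 ≤ b x ^ p := fun x hx => Real.rpow_nonneg (hb x hx) _
  have hM0 : ∀ x, 0 ≤ MR X rel P n (fun y => b y ^ p) x := fun x => MR_nonneg H hbp x
  have hg0 : ∀ x, 0 ≤ g x := fun x => Real.rpow_nonneg (hM0 x) _
  -- one point
  have hpt1 : ∀ x ∈ X, ∑ s ∈ range (n + 1), P x * (a x * (ν s x *
      ∑ y ∈ X.filter (fun y => rel s x y), W s y * (β s x y * b y))) ≤
      C * (P x * (a x * g x)) := by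
    intro x hx
    have hPx := H.P_nonneg x hx
    rcases hPx.eq_or_lt with h0 | h0
    · rw [← h0]
      simp
    by_cases hax : a x = 0
    · rw [hax]
      simp
    have h1 : ∀ s ∈ range (n + 1), P x * (a x * (ν s x *
        ∑ y ∈ X.filter (fun y => rel s x y), W s y * (β s x y * b y))) ≤
        (ν s x * (∑ y ∈ X.filter (fun y => rel s x y), W s y * β s x y) ^ (1 - 1 / p)) *
          (P x * (a x * g x)) := by
      intro s hs
      have hh := holder_beta (S := X.filter (fun y => rel s x y)) (w := fun y => W s y)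
        (β := fun y => β s x y) (y := b) hp
        (fun y hy => H.W_nonneg s y (mem_filter.1 hy).1)
        (fun y hy => hβ s x hx y (mem_filter.1 hy).1)
        (fun y hy => hβ1 s x hx y (mem_filter.1 hy).1) (fun y hy => hb y (mem_filter.1 hy).1)
      have hA : (∑ y ∈ X.filter (fun y => rel s x y), W s y * b y ^ p) ^ (1 / p) ≤ g x := by
        refine Real.rpow_le_rpow ?_ ?_ (by positivity)
        · exact sum_nonneg fun y hy => mul_nonneg (H.W_nonneg s y (mem_filter.1 hy).1)
            (hbp y (mem_filter.1 hy).1)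
        · exact Av_le_MR H hbp (by have := mem_range.1 hs; omega) hx h0
      have hB : 0 ≤ (∑ y ∈ X.filter (fun y => rel s x y), W s y * β s x y) ^ (1 - 1 / p) :=
        Real.rpow_nonneg (sum_nonneg fun y hy => mul_nonneg (H.W_nonneg s y (mem_filter.1 hy).1)
          (hβ s x hx y (mem_filter.1 hy).1)) _
      calc P x * (a x * (ν s x *
          ∑ y ∈ X.filter (fun y => rel s x y), W s y * (β s x y * b y))) ≤
          P x * (a x * (ν s x * ((∑ y ∈ X.filter (fun y => rel s x y),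
            W s y * β s x y) ^ (1 - 1 / p) * g x))) := by
            refine mul_le_mul_of_nonneg_left (mul_le_mul_of_nonneg_left
              (mul_le_mul_of_nonneg_left ?_ (hν s x hx)) (ha x hx)) hPx
            exact hh.trans (mul_le_mul_of_nonneg_left hA hB)
        _ = _ := by ring
    refine (sum_le_sum h1).trans ?_
    rw [← sum_mul]
    exact mul_le_mul_of_nonneg_right (hC x hx hax) (mul_nonneg hPx (mul_nonneg (ha x hx) (hg0 x)))
  rw [sum_comm]
  refine (sum_le_sum hpt1).trans ?_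
  rw [← mul_sum]
  -- Hölder
  have hh := Real.inner_le_Lp_mul_Lq_of_nonneg X (f := fun x => P x ^ (1 / t') * a x)
    (g := fun x => P x ^ (1 / t) * g x) htt
    (fun x hx => mul_nonneg (Real.rpow_nonneg (H.P_nonneg x hx) _) (ha x hx))
    (fun x hx => mul_nonneg (Real.rpow_nonneg (H.P_nonneg x hx) _) (hg0 x))
  have e1 : ∀ x ∈ X, P x ^ (1 / t') * a x * (P x ^ (1 / t) * g x) = P x * (a x * g x) := by
    intro x hx
    have hs : 1 / t' + 1 / t = 1 := by
      have := htt.inv_add_inv_eq_one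
      rw [one_div, one_div]
      exact this
    have : P x ^ (1 / t') * P x ^ (1 / t) = P x := by
      rcases (H.P_nonneg x hx).eq_or_lt with h0 | h0
      · rw [← h0, Real.zero_rpow (by positivity), zero_mul]
      · rw [← Real.rpow_add h0, hs, Real.rpow_one]
    calc P x ^ (1 / t') * a x * (P x ^ (1 / t) * g x) =
        (P x ^ (1 / t') * P x ^ (1 / t)) * (a x * g x) := by ring
      _ = _ := by rw [this]
  have e2 : ∀ x ∈ X, (P x ^ (1 / t') * a x) ^ t' = P x * a x ^ t' := by
    intro x hx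
    rw [Real.mul_rpow (Real.rpow_nonneg (H.P_nonneg x hx) _) (ha x hx),
      ← Real.rpow_mul (H.P_nonneg x hx), one_div_mul_cancel ht'0.ne', Real.rpow_one]
  have e3 : ∀ x ∈ X, (P x ^ (1 / t) * g x) ^ t = P x * g x ^ t := by
    intro x hx
    rw [Real.mul_rpow (Real.rpow_nonneg (H.P_nonneg x hx) _) (hg0 x),
      ← Real.rpow_mul (H.P_nonneg x hx), one_div_mul_cancel ht0.ne', Real.rpow_one]
  rw [sum_congr rfl e1, sum_congr rfl e2, sum_congr rfl e3] at hh
  -- Doob
  have hr : 1 < t / p := by rw [lt_div_iff₀ hp0]; linarith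
  have hd := doobR H (n := n) hr hbp
  have e4 : ∀ x ∈ X, P x * MR X rel P n (fun y => b y ^ p) x ^ (t / p) = P x * g x ^ t := by
    intro x _
    rw [hg]
    simp only
    rw [← Real.rpow_mul (hM0 x)]
    congr 2
    ring
  have e5 : ∀ x ∈ X, P x * (b x ^ p) ^ (t / p) = P x * b x ^ t := by
    intro x hx
    rw [← Real.rpow_mul (hb x hx)]
    congr 2
    field_simp
  rw [sum_congr rfl e4, sum_congr rfl e5] at hd
  have e6 : t / p / (t / p - 1) = t / (t - p) := by
    have : t - p ≠ 0 := by linarith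
    have h2 : t / p - 1 ≠ 0 := by linarith
    field_simp
  rw [e6] at hd
  have hbt : 0 ≤ ∑ x ∈ X, P x * b x ^ t := sum_nonneg fun x hx =>
    mul_nonneg (H.P_nonneg x hx) (Real.rpow_nonneg (hb x hx) _)
  have hat : 0 ≤ ∑ x ∈ X, P x * a x ^ t' := sum_nonneg fun x hx =>
    mul_nonneg (H.P_nonneg x hx) (Real.rpow_nonneg (ha x hx) _)
  have hgt : 0 ≤ ∑ x ∈ X, P x * g x ^ t := sum_nonneg fun x hx =>
    mul_nonneg (H.P_nonneg x hx) (Real.rpow_nonneg (hg0 x) _)
  have hq0 : 0 ≤ t / (t - p) := div_nonneg ht0.le (by linarith)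
  have h5 : (∑ x ∈ X, P x * g x ^ t) ^ (1 / t) ≤
      (t / (t - p)) ^ (1 / p) * (∑ x ∈ X, P x * b x ^ t) ^ (1 / t) := by
    have h6 := Real.rpow_le_rpow hgt hd (show (0 : ℝ) ≤ 1 / t by positivity)
    rw [Real.mul_rpow (Real.rpow_nonneg hq0 _) hbt, ← Real.rpow_mul hq0] at h6
    have e7 : t / p * (1 / t) = 1 / p := by field_simp
    rwa [e7] at h6
  calc C * ∑ x ∈ X, P x * (a x * g x)
      ≤ C * ((∑ x ∈ X, P x * a x ^ t') ^ (1 / t') *
          ((t / (t - p)) ^ (1 / p) * (∑ x ∈ X, P x * b x ^ t) ^ (1 / t))) := by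
        refine mul_le_mul_of_nonneg_left (hh.trans ?_) hC0
        exact mul_le_mul_of_nonneg_left h5 (Real.rpow_nonneg hat _)
    _ = _ := by ring

end Vale.P028.Db
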