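import Mathlib

/-!
# P028: the abstract tree with fibres

`tree_fib`: read the labels `e p r` (`p ∈ P`, `P` a finite set of numbers) from the largest `p` to the
smallest.  If at every node the sum of the weights of the branches is at most `1 + X`, and the sum of
`h` over every fibre (all labels equal) is at most `K`, then `∑ h r ∏ w p r / (1 + X p r) ≤ K`.
-/

open Finset

namespace Vale.P028.Db

theorem tree_fib {ι : Type*} [DecidableEq ι] {e : ℕ → ι → ℕ} {w X : ℕ → ι → ℝ} {h : ι → ℝ} {K : ℝ}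
    (hK : 0 ≤ K) (P : Finset ℕ) (S : Finset ι)
    (hh : ∀ r ∈ S, 0 ≤ h r) (hw0 : ∀ p ∈ P, ∀ r ∈ S, 0 ≤ w p r)
    (hX0 : ∀ p ∈ P, ∀ r ∈ S, 0 ≤ X p r)
    (hX : ∀ p ∈ P, ∀ r ∈ S, ∀ r' ∈ S, (∀ q ∈ P, p < q → e q r = e q r') → X p r = X p r')
    (hw : ∀ p ∈ P, ∀ r ∈ S, ∀ r' ∈ S, (∀ q ∈ P, p < q → e q r = e q r') → e p r = e p r' →
      w p r = w p r')
    (hn : ∀ p ∈ P, ∀ r ∈ S, ∀ T ⊆ S, (∀ r' ∈ T, ∀ q ∈ P, p < q → e q r' = e q r) →
      Set.InjOn (e p) T → ∑ r' ∈ T, w p r' ≤ 1 + X p r)
    (hf : ∀ r ∈ S, ∑ r' ∈ S with (∀ q ∈ P, e q r' = e q r), h r' ≤ K) :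
    ∑ r ∈ S, h r * ∏ p ∈ P, (w p r / (1 + X p r)) ≤ K := by
  classical
  induction P using Finset.induction_on_max generalizing S with
  | empty =>
    rcases S.eq_empty_or_nonempty with rfl | ⟨r, hr⟩
    · simpa using hK
    · have := hf r hr
      simp only [Finset.notMem_empty, IsEmpty.forall_iff, implies_true, Finset.filter_true] at this
      simpa using this
  | insert a P hmax ih =>
    have haP : a ∉ P := fun h => lt_irrefl _ (hmax a h)
    -- the root: X a and the weights are functions of the label at `a`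
    have hroot : ∀ r ∈ S, ∀ r' ∈ S, X a r = X a r' := by
      intro r hr r' hr'
      refine hX a (Finset.mem_insert_self _ _) r hr r' hr' ?_
      intro q hq hlt
      rcases Finset.mem_insert.1 hq with rfl | hq
      · exact absurd hlt (lt_irrefl _)
      · exact absurd hlt (not_lt.2 (hmax q hq).le)
    have hrootw : ∀ r ∈ S, ∀ r' ∈ S, e a r = e a r' → w a r = w a r' := by
      intro r hr r' hr' he
      refine hw a (Finset.mem_insert_self _ _) r hr r' hr' ?_ he
      intro q hq hlt
      rcases Finset.mem_insert.1 hq with rfl | hq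
      · exact absurd hlt (lt_irrefl _)
      · exact absurd hlt (not_lt.2 (hmax q hq).le)
    rcases S.eq_empty_or_nonempty with rfl | ⟨r0, hr0⟩
    · simpa using hK
    -- for every label value ℓ
    have hfibre : ∀ ℓ ∈ S.image (e a), ∑ r ∈ S with e a r = ℓ,
        h r * ∏ p ∈ P, (w p r / (1 + X p r)) ≤ K := by
      intro ℓ _
      refine ih (S.filter fun r => e a r = ℓ) ?_ ?_ ?_ ?_ ?_ ?_ ?_
      · intro r hr; exact hh r (Finset.mem_filter.1 hr).1
      · intro p hp r hr; exact hw0 p (Finset.mem_insert_of_mem hp) r (Finset.mem_filter.1 hr).1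
      · intro p hp r hr; exact hX0 p (Finset.mem_insert_of_mem hp) r (Finset.mem_filter.1 hr).1
      · intro p hp r hr r' hr' hq
        have h1 := Finset.mem_filter.1 hr
        have h2 := Finset.mem_filter.1 hr'
        refine hX p (Finset.mem_insert_of_mem hp) r h1.1 r' h2.1 ?_
        intro q hq' hlt
        rcases Finset.mem_insert.1 hq' with rfl | hq'
        · rw [h1.2, h2.2]
        · exact hq q hq' hlt
      · intro p hp r hr r' hr' hq he
        have h1 := Finset.mem_filter.1 hr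
        have h2 := Finset.mem_filter.1 hr'
        refine hw p (Finset.mem_insert_of_mem hp) r h1.1 r' h2.1 ?_ he
        intro q hq' hlt
        rcases Finset.mem_insert.1 hq' with rfl | hq'
        · rw [h1.2, h2.2]
        · exact hq q hq' hlt
      · intro p hp r hr T hT hq hinj
        have h1 := Finset.mem_filter.1 hr
        refine hn p (Finset.mem_insert_of_mem hp) r h1.1 T
          (fun x hx => (Finset.mem_filter.1 (hT hx)).1) ?_ hinj
        intro r' hr' q hq' hlt
        rcases Finset.mem_insert.1 hq' with rfl | hq'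
        · rw [(Finset.mem_filter.1 (hT hr')).2, h1.2]
        · exact hq r' hr' q hq' hlt
      · intro r hr
        have h1 := Finset.mem_filter.1 hr
        refine le_trans (le_of_eq ?_) (hf r h1.1)
        refine Finset.sum_congr ?_ fun _ _ => rfl
        ext x
        simp only [Finset.mem_filter]
        constructor
        · rintro ⟨⟨hx, hxa⟩, hx2⟩
          refine ⟨hx, fun q hq => ?_⟩
          rcases Finset.mem_insert.1 hq with rfl | hq
          · rw [hxa, h1.2]
          · exact hx2 q hq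
        · rintro ⟨hx, hx2⟩
          exact ⟨⟨hx, by rw [hx2 a (Finset.mem_insert_self _ _), h1.2]⟩,
            fun q hq => hx2 q (Finset.mem_insert_of_mem hq)⟩
    -- choose representatives of the labels
    have hrep : ∀ ℓ ∈ S.image (e a), ∃ r ∈ S, e a r = ℓ := by
      intro ℓ hℓ
      obtain ⟨r, hr, h⟩ := Finset.mem_image.1 hℓ
      exact ⟨r, hr, h⟩
    have : Nonempty ι := ⟨r0⟩
    choose! ρ hρS hρe using hrep
    set T : Finset ι := (S.image (e a)).image ρ with hTdef
    have hTS : T ⊆ S := by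
      intro x hx
      obtain ⟨ℓ, hℓ, rfl⟩ := Finset.mem_image.1 hx
      exact hρS ℓ hℓ
    have hTinj : Set.InjOn (e a) (T : Set ι) := by
      intro x hx y hy hxy
      obtain ⟨ℓ, hℓ, rfl⟩ := Finset.mem_image.1 (Finset.mem_coe.1 hx)
      obtain ⟨ℓ', hℓ', rfl⟩ := Finset.mem_image.1 (Finset.mem_coe.1 hy)
      rw [hρe ℓ hℓ, hρe ℓ' hℓ'] at hxy
      rw [hxy]
    have hXpos : 0 < 1 + X a r0 := by
      have := hX0 a (Finset.mem_insert_self _ _) r0 hr0
      linarith
    have hsumT : ∑ ℓ ∈ S.image (e a), w a (ρ ℓ) ≤ 1 + X a r0 := by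
      have h1 := hn a (Finset.mem_insert_self _ _) r0 hr0 T hTS (by
        intro r' _ q hq hlt
        rcases Finset.mem_insert.1 hq with rfl | hq
        · exact absurd hlt (lt_irrefl _)
        · exact absurd hlt (not_lt.2 (hmax q hq).le)) hTinj
      rw [hTdef, Finset.sum_image] at h1
      · exact h1
      · intro x hx y hy hxy
        have h2 : e a (ρ x) = e a (ρ y) := congrArg (e a) hxy
        rwa [hρe x hx, hρe y hy] at h2
    calc ∑ r ∈ S, h r * ∏ p ∈ insert a P, (w p r / (1 + X p r))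
        = ∑ ℓ ∈ S.image (e a), ∑ r ∈ S with e a r = ℓ,
            h r * ∏ p ∈ insert a P, (w p r / (1 + X p r)) :=
          (Finset.sum_fiberwise_of_maps_to (fun x hx => Finset.mem_image_of_mem _ hx) _).symm
      _ ≤ ∑ ℓ ∈ S.image (e a), w a (ρ ℓ) / (1 + X a r0) * K := by
          refine Finset.sum_le_sum fun ℓ hℓ => ?_
          have hw1 : 0 ≤ w a (ρ ℓ) / (1 + X a r0) :=
            div_nonneg (hw0 a (Finset.mem_insert_self _ _) _ (hρS ℓ hℓ)) hXpos.le
          refine le_trans (le_of_eq ?_) (mul_le_mul_of_nonneg_left (hfibre ℓ hℓ) hw1)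
          rw [Finset.mul_sum]
          refine Finset.sum_congr rfl fun r hr => ?_
          have h1 := Finset.mem_filter.1 hr
          rw [Finset.prod_insert haP, hroot r h1.1 r0 hr0,
            hrootw r h1.1 (ρ ℓ) (hρS ℓ hℓ) (by rw [h1.2, hρe ℓ hℓ])]
          ring
      _ = (∑ ℓ ∈ S.image (e a), w a (ρ ℓ)) / (1 + X a r0) * K := by
          rw [← Finset.sum_mul, Finset.sum_div]
      _ ≤ 1 * K := by
          refine mul_le_mul_of_nonneg_right ?_ hK
          rw [div_le_one hXpos]
          exact hsumT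
      _ = K := one_mul K

/-- The sum of the branch weights `(p^|e - e₀|)^(-5/12)` over a finite set of labels. -/
theorem branch_sum {p : ℕ} (hp : 2 ≤ p) (e₀ : ℕ) (T : Finset ℕ) :
    ∑ e ∈ T, (((p ^ ((e - e₀) + (e₀ - e)) : ℕ) : ℝ)) ^ (-(5 / 12 : ℝ))
      ≤ 1 + 8 * (p : ℝ) ^ (-(5 / 12 : ℝ)) := by
  classical
  have hp1 : (1 : ℝ) < p := by exact_mod_cast (by omega : 1 < p)
  have hp0 : (0 : ℝ) < p := by linarith
  set t : ℝ := (p : ℝ) ^ (-(5 / 12 : ℝ)) with ht
  have ht0 : 0 < t := Real.rpow_pos_of_pos hp0 _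
  have ht1 : t ≤ 3 / 4 := by
    have h1 : t ≤ (2 : ℝ) ^ (-(5 / 12 : ℝ)) :=
      Real.rpow_le_rpow_of_nonpos (by norm_num) (by exact_mod_cast hp) (by norm_num)
    refine h1.trans ?_
    rw [Real.rpow_neg (by norm_num)]
    have h2 : (4 / 3 : ℝ) ≤ (2 : ℝ) ^ (5 / 12 : ℝ) := by
      have h3 : ((4 / 3 : ℝ)) = ((4 / 3 : ℝ) ^ (12 : ℕ)) ^ ((1 : ℝ) / 12) := by
        rw [← Real.rpow_natCast, ← Real.rpow_mul (by norm_num)]
        norm_num
      rw [h3, show (5 / 12 : ℝ) = 5 * (1 / 12) by norm_num, Real.rpow_mul (by norm_num)]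
      refine Real.rpow_le_rpow (by positivity) ?_ (by norm_num)
      norm_num
    calc ((2 : ℝ) ^ (5 / 12 : ℝ))⁻¹ ≤ (4 / 3 : ℝ)⁻¹ := inv_anti₀ (by norm_num) h2
      _ = 3 / 4 := by norm_num
  have hterm : ∀ e ∈ T, (((p ^ ((e - e₀) + (e₀ - e)) : ℕ) : ℝ)) ^ (-(5 / 12 : ℝ))
      = t ^ ((e - e₀) + (e₀ - e)) := by
    intro e _
    rw [Nat.cast_pow, ← Real.rpow_natCast, ← Real.rpow_mul hp0.le, mul_comm,
      Real.rpow_mul hp0.le, Real.rpow_natCast]
  rw [Finset.sum_congr rfl hterm]
  -- split into e ≤ e₀ and e > e₀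
  have hgeo : ∀ (A : Finset ℕ) (φ : ℕ → ℕ), Set.InjOn φ (A : Set ℕ) → (∀ e ∈ A, 1 ≤ φ e) →
      ∑ e ∈ A, t ^ φ e ≤ 4 * t := by
    intro A φ hφ h1
    have hsum : Summable fun n : ℕ => t ^ n := summable_geometric_of_lt_one ht0.le (by linarith)
    calc ∑ e ∈ A, t ^ φ e = ∑ n ∈ A.image φ, t ^ n := (Finset.sum_image hφ).symm
      _ = ∑ n ∈ A.image φ, t * t ^ (n - 1) := by
          refine Finset.sum_congr rfl fun n hn => ?_
          obtain ⟨e, he, rfl⟩ := Finset.mem_image.1 hn
          have := h1 e he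
          rw [← pow_succ']
          congr 1
          omega
      _ = ∑ n ∈ (A.image φ).image (fun n => n - 1), t * t ^ n := by
          have hinj : Set.InjOn (fun n : ℕ => n - 1) ((A.image φ : Finset ℕ) : Set ℕ) := by
            intro x hx y hy hxy
            obtain ⟨e, he, rfl⟩ := Finset.mem_image.1 (Finset.mem_coe.1 hx)
            obtain ⟨e', he', rfl⟩ := Finset.mem_image.1 (Finset.mem_coe.1 hy)
            have := h1 e he
            have := h1 e' he'
            simp only at hxy
            omega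
          exact (Finset.sum_image (f := fun n => t * t ^ n) hinj).symm
      _ = t * ∑ n ∈ (A.image φ).image (fun n => n - 1), t ^ n := by rw [Finset.mul_sum]
      _ ≤ t * ∑' n, t ^ n := by
          refine mul_le_mul_of_nonneg_left ?_ ht0.le
          exact hsum.sum_le_tsum _ fun n _ => pow_nonneg ht0.le n
      _ = t * (1 - t)⁻¹ := by rw [tsum_geometric_of_lt_one ht0.le (by linarith)]
      _ ≤ t * 4 := by
          refine mul_le_mul_of_nonneg_left ?_ ht0.le
          rw [inv_le_comm₀ (by linarith) (by norm_num)]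
          linarith
      _ = 4 * t := by ring
  have hA := hgeo (T.filter fun e => e < e₀) (fun e => (e - e₀) + (e₀ - e)) (by
      intro x hx y hy hxy
      have h1 := (Finset.mem_filter.1 (Finset.mem_coe.1 hx)).2
      have h2 := (Finset.mem_filter.1 (Finset.mem_coe.1 hy)).2
      simp only at hxy
      omega) (by
      intro e he
      have h1 := (Finset.mem_filter.1 he).2
      omega)
  have hB := hgeo (T.filter fun e => e₀ < e) (fun e => (e - e₀) + (e₀ - e)) (by
      intro x hx y hy hxy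
      have h1 := (Finset.mem_filter.1 (Finset.mem_coe.1 hx)).2
      have h2 := (Finset.mem_filter.1 (Finset.mem_coe.1 hy)).2
      simp only at hxy
      omega) (by
      intro e he
      have h1 := (Finset.mem_filter.1 he).2
      omega)
  have hsplit : ∑ e ∈ T, t ^ ((e - e₀) + (e₀ - e))
      ≤ ∑ e ∈ T.filter (fun e => e < e₀), t ^ ((e - e₀) + (e₀ - e))
        + (1 + ∑ e ∈ T.filter (fun e => e₀ < e), t ^ ((e - e₀) + (e₀ - e))) := by
    rw [← Finset.sum_filter_add_sum_filter_not T (fun e => e < e₀)]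
    refine add_le_add le_rfl ?_
    rw [← Finset.sum_filter_add_sum_filter_not (T.filter fun e => ¬ e < e₀) (fun e => e₀ < e),
      add_comm]
    refine add_le_add ?_ ?_
    · have : ∑ e ∈ (T.filter fun e => ¬ e < e₀).filter (fun e => ¬ e₀ < e),
          t ^ ((e - e₀) + (e₀ - e)) ≤ ∑ e ∈ ({e₀} : Finset ℕ), t ^ ((e - e₀) + (e₀ - e)) := by
        refine Finset.sum_le_sum_of_subset_of_nonneg ?_ fun e _ _ => pow_nonneg ht0.le _
        intro e he
        simp only [Finset.mem_filter] at he
        rw [Finset.mem_singleton]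
        omega
      refine this.trans ?_
      simp
    · refine le_of_eq (Finset.sum_congr ?_ fun _ _ => rfl)
      ext e
      simp only [Finset.mem_filter]
      constructor
      · rintro ⟨⟨h1, _⟩, h3⟩; exact ⟨h1, h3⟩
      · rintro ⟨h1, h3⟩; exact ⟨⟨h1, not_lt.2 h3.le⟩, h3⟩
  linarith

end Vale.P028.Db
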